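import Mathlib

/-!
# P196, block S0: simplicity of groups of local permutations of `(ℤ × ℤ) × ι`
-/

namespace Vale.Agent.P196.S0

open Equiv

/-- The lattice. -/
abbrev Z2 := ℤ × ℤ

section defs

variable {ι : Type*}

open Classical in
/-- Apply the floor permutation `a` above the set `E`. -/
noncomputable def eP (E : Set Z2) (a : Perm ι) : Perm (Z2 × ι) where
  toFun p := if p.1 ∈ E then (p.1, a p.2) else p
  invFun p := if p.1 ∈ E then (p.1, a⁻¹ p.2) else p
  left_inv p := by by_cases h : p.1 ∈ E <;> simp [h]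
  right_inv p := by by_cases h : p.1 ∈ E <;> simp [h]

/-- Translate the floor `f` by `w f`. -/
def dP (w : ι → Z2) : Perm (Z2 × ι) where
  toFun p := (p.1 + w p.2, p.2)
  invFun p := (p.1 - w p.2, p.2)
  left_inv p := by simp
  right_inv p := by simp

/-- Systems of local sets: a translation invariant Boolean algebra of subsets of `ℤ²`
with freeness and uniform recurrence. -/
structure LocalSets (LS : Set (Set Z2)) : Prop where
  univ : Set.univ ∈ LS
  compl : ∀ E ∈ LS, Eᶜ ∈ LS
  inter : ∀ E ∈ LS, ∀ F ∈ LS, E ∩ F ∈ LS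
  trans : ∀ E ∈ LS, ∀ v : Z2, {u | u - v ∈ E} ∈ LS
  free : ∀ v : Z2, v ≠ 0 → ∀ u : Z2, ∃ F ∈ LS, u ∈ F ∧ ∀ x ∈ F, x - v ∉ F
  recur : ∀ E ∈ LS, E.Nonempty → ∃ V : Finset Z2, ∀ u : Z2, ∃ v ∈ V, u + v ∈ E

/-- The group generated by the local even floor permutations and the translations with sum `0`. -/
def grp (ι : Type*) [Fintype ι] [DecidableEq ι] (LS : Set (Set Z2)) :
    Subgroup (Perm (Z2 × ι)) :=
  Subgroup.closure
    ({g | ∃ E ∈ LS, ∃ a ∈ alternatingGroup ι, g = eP E a} ∪
     {g | ∃ w : ι → Z2, ∑ i, w i = 0 ∧ g = dP w})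

end defs

section basic

variable {ι : Type*}

theorem eP_apply_mem {E : Set Z2} {a : Perm ι} {u : Z2} {f : ι} (h : u ∈ E) :
    eP E a (u, f) = (u, a f) := by simp [eP, h]

theorem eP_apply_notMem {E : Set Z2} {a : Perm ι} {u : Z2} {f : ι} (h : u ∉ E) :
    eP E a (u, f) = (u, f) := by simp [eP, h]

theorem eP_apply_fix {E : Set Z2} {a : Perm ι} {u : Z2} {f : ι} (h : a f = f) :
    eP E a (u, f) = (u, f) := by
  by_cases hu : u ∈ E
  · rw [eP_apply_mem hu, h]
  · rw [eP_apply_notMem hu]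

@[simp] theorem dP_apply (w : ι → Z2) (u : Z2) (f : ι) : dP w (u, f) = (u + w f, f) := rfl

theorem dP_inv (w : ι → Z2) : (dP w)⁻¹ = dP (-w) := by
  rw [inv_eq_iff_mul_eq_one]
  ext1 ⟨u, f⟩
  simp

theorem dP_mul (w w' : ι → Z2) : dP w * dP w' = dP (w + w') := by
  ext1 ⟨u, f⟩
  simp [add_comm, add_left_comm]

theorem dP_zero : dP (0 : ι → Z2) = 1 := by
  ext1 ⟨u, f⟩
  simp

/-- `eP E` as a homomorphism. -/
noncomputable def ePHom (E : Set Z2) : Perm ι →* Perm (Z2 × ι) where
  toFun := eP E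
  map_one' := by
    ext1 ⟨u, f⟩
    by_cases h : u ∈ E
    · rw [eP_apply_mem h]; rfl
    · rw [eP_apply_notMem h]; rfl
  map_mul' a b := by
    ext1 ⟨u, f⟩
    by_cases h : u ∈ E
    · rw [Perm.mul_apply, eP_apply_mem h, eP_apply_mem h, eP_apply_mem h]; rfl
    · rw [Perm.mul_apply, eP_apply_notMem h, eP_apply_notMem h, eP_apply_notMem h]

@[simp] theorem ePHom_apply (E : Set Z2) (a : Perm ι) : ePHom E a = eP E a := rfl

theorem eP_union {E F : Set Z2} (h : Disjoint E F) (a : Perm ι) :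
    eP (E ∪ F) a = eP E a * eP F a := by
  ext1 ⟨u, f⟩
  rw [Perm.mul_apply]
  by_cases hE : u ∈ E
  · have hF : u ∉ F := fun hF => Set.disjoint_left.1 h hE hF
    rw [eP_apply_mem (Or.inl hE), eP_apply_notMem hF, eP_apply_mem hE]
  · by_cases hF : u ∈ F
    · rw [eP_apply_mem (Or.inr hF), eP_apply_mem hF, eP_apply_notMem hE]
    · rw [eP_apply_notMem (by simp [hE, hF]), eP_apply_notMem hF, eP_apply_notMem hE]

theorem eP_empty (a : Perm ι) : eP ∅ a = 1 := by
  ext1 ⟨u, f⟩
  rw [eP_apply_notMem (by simp)]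
  rfl

/-- Conjugation of `eP E a` by a translation that is constant on the support of `a`. -/
theorem dP_conj_eP {E : Set Z2} {a : Perm ι} {w : ι → Z2} {v : Z2}
    (h : ∀ f, a f ≠ f → w f = v) :
    dP w * eP E a * (dP w)⁻¹ = eP {u | u - v ∈ E} a := by
  rw [mul_inv_eq_iff_eq_mul]
  ext1 ⟨u, f⟩
  rw [Perm.mul_apply, Perm.mul_apply, dP_apply w u f]
  by_cases hf : a f = f
  · rw [eP_apply_fix hf, eP_apply_fix hf, dP_apply]
  · have h1 : w f = v := h f hf
    have h2 : w (a f) = v := h (a f) (fun h' => hf (a.injective h'))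
    by_cases hu : u ∈ E
    · rw [eP_apply_mem hu, dP_apply, h2, h1, eP_apply_mem (by simpa using hu)]
    · rw [eP_apply_notMem hu, dP_apply, h1, eP_apply_notMem (by simpa using hu)]

theorem commutator_eP {E F : Set Z2} (hFE : F ⊆ E) (a b : Perm ι) :
    eP F (a * b * a⁻¹ * b⁻¹) = eP E a * eP F b * (eP E a)⁻¹ * (eP F b)⁻¹ := by
  have key : eP F (a * b * a⁻¹ * b⁻¹) * eP F b * eP E a = eP E a * eP F b := by
    ext1 ⟨u, f⟩
    simp only [Perm.mul_apply]
    by_cases hF : u ∈ F
    · have hE := hFE hF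
      rw [eP_apply_mem hE, eP_apply_mem hF, eP_apply_mem hF, eP_apply_mem hF, eP_apply_mem hE]
      simp
    · rw [eP_apply_notMem (a := b) hF]
      by_cases hE : u ∈ E
      · rw [eP_apply_mem hE, eP_apply_notMem hF, eP_apply_notMem hF]
      · rw [eP_apply_notMem hE, eP_apply_notMem hF, eP_apply_notMem hF]
  rw [eq_mul_inv_iff_mul_eq, eq_mul_inv_iff_mul_eq, key]

end basic

section blow

variable {ι : Type*}

/-- `E` is small relative to `V`: the translates `E + v`, `v ∈ V`, are disjoint. -/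
def Small (E : Set Z2) (V : Finset Z2) : Prop :=
  ∀ v ∈ V, ∀ v' ∈ V, ∀ x ∈ E, ∀ x' ∈ E, x + v = x' + v' → v = v'

/-- The embedding of sites above `E`. -/
def jE (E : Set Z2) (V : Finset Z2) (h : Small E V) : (E × (V × ι)) ↪ (Z2 × ι) where
  toFun p := ((p.1 : Z2) + (p.2.1 : Z2), p.2.2)
  inj' := by
    rintro ⟨⟨x, hx⟩, ⟨⟨v, hv⟩, f⟩⟩ ⟨⟨x', hx'⟩, ⟨⟨v', hv'⟩, f'⟩⟩ heq
    simp only [Prod.mk.injEq] at heq
    obtain ⟨h1, rfl⟩ := heq
    have h2 : v = v' := h v hv v' hv' x hx x' hx' h1
    subst h2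
    have h3 : x = x' := by simpa using h1
    subst h3
    rfl

/-- Permutations of the sites, done simultaneously above all points of `E`. -/
noncomputable def blow (E : Set Z2) (V : Finset Z2) (h : Small E V) :
    Perm (V × ι) →* Perm (Z2 × ι) :=
  (Perm.viaEmbeddingHom (jE E V h)).comp
    { toFun := fun σ => Equiv.prodCongr (Equiv.refl _) σ
      map_one' := rfl
      map_mul' := fun _ _ => rfl }

theorem blow_apply {E : Set Z2} {V : Finset Z2} (h : Small E V) (σ : Perm (V × ι))
    {x : Z2} (hx : x ∈ E) (s : V × ι) :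
    blow E V h σ (x + (s.1 : Z2), s.2) = (x + ((σ s).1 : Z2), (σ s).2) := by
  have := Perm.viaEmbedding_apply (Equiv.prodCongr (Equiv.refl E) σ) (jE E V h) (⟨x, hx⟩, s)
  exact this

theorem blow_eq_self {E : Set Z2} {V : Finset Z2} (h : Small E V) (σ : Perm (V × ι))
    {y : Z2} {f : ι} (H : ∀ v : V, y - v ∈ E → σ (v, f) = (v, f)) :
    blow E V h σ (y, f) = (y, f) := by
  by_cases hy : ∃ v : V, y - v ∈ E
  · obtain ⟨v, hv⟩ := hy
    have := blow_apply h σ hv (v, f)
    rw [H v hv] at this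
    simpa using this
  · push Not at hy
    refine Perm.viaEmbedding_apply_of_notMem _ _ _ ?_
    rintro ⟨⟨⟨x, hx⟩, ⟨v, f'⟩⟩, heq⟩
    apply hy v
    have h1 : x + (v : Z2) = y := congrArg Prod.fst heq
    rw [← h1]
    simpa using hx

theorem blow_injective {E : Set Z2} {V : Finset Z2} (h : Small E V) (hE : E.Nonempty) :
    Function.Injective (blow (ι := ι) E V h) := by
  intro σ τ hst
  obtain ⟨x, hx⟩ := hE
  ext1 s
  have h1 := blow_apply h σ hx s
  have h2 := blow_apply h τ hx s
  rw [hst, h2] at h1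
  rw [Prod.mk.injEq] at h1
  refine Prod.ext (Subtype.ext ?_) h1.2.symm
  have := h1.1
  simpa using this.symm

end blow

section cyc

variable {α : Type*} [DecidableEq α]

/-- The 3-cycle `a ↦ b ↦ c ↦ a`. -/
def cyc (a b c : α) : Perm α := swap a b * swap b c

theorem cyc_conj (g : Perm α) (a b c : α) :
    g * cyc a b c * g⁻¹ = cyc (g a) (g b) (g c) := by
  rw [cyc, cyc, mul_assoc, mul_assoc, ← mul_assoc g, Equiv.mul_swap_eq_swap_mul, mul_assoc,
    ← mul_assoc g, Equiv.mul_swap_eq_swap_mul]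
  simp

theorem cyc_apply_a {a b c : α} (hab : a ≠ b) (hac : a ≠ c) : cyc a b c a = b := by
  rw [cyc, Perm.mul_apply, swap_apply_of_ne_of_ne hab hac, swap_apply_left]

theorem cyc_apply_b {a b c : α} (hac : a ≠ c) (hbc : b ≠ c) : cyc a b c b = c := by
  rw [cyc, Perm.mul_apply, swap_apply_left, swap_apply_of_ne_of_ne hac.symm hbc.symm]

theorem cyc_apply_c {a b c : α} : cyc a b c c = a := by
  rw [cyc, Perm.mul_apply, swap_apply_right, swap_apply_right]

theorem cyc_apply_of {a b c x : α} (ha : x ≠ a) (hb : x ≠ b) (hc : x ≠ c) :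
    cyc a b c x = x := by
  rw [cyc, Perm.mul_apply, swap_apply_of_ne_of_ne hb hc, swap_apply_of_ne_of_ne ha hb]

theorem cyc_mem_alternating [Fintype α] {a b c : α} (hab : a ≠ b) (hbc : b ≠ c) :
    cyc a b c ∈ alternatingGroup α := by
  rw [Perm.mem_alternatingGroup, cyc, map_mul, Perm.sign_swap hab, Perm.sign_swap hbc]
  rfl

theorem alternating_le_of_cyc [Fintype α] (K : Subgroup (Perm α))
    (h : ∀ a b c : α, a ≠ b → b ≠ c → a ≠ c → cyc a b c ∈ K) :
    alternatingGroup α ≤ K := by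
  rw [← Perm.closure_three_cycles_eq_alternating, Subgroup.closure_le]
  intro σ hσ
  have hσ' : Perm.IsThreeCycle σ := hσ
  have hne : σ.support.Nonempty := by
    rw [← Finset.card_pos, hσ'.card_support]
    norm_num
  obtain ⟨a, ha⟩ := hne
  have h1 := hσ'.eq_swap_mul_swap_iff_mem_support.2 ha
  have ha' : σ a ≠ a := Perm.mem_support.1 ha
  have h3 : σ (σ a) ≠ σ a := fun h => ha' (σ.injective h)
  have h4 : σ (σ a) ≠ a := by
    intro h4
    have hsq : orderOf σ = 3 := hσ'.orderOf
    have h5 : (σ ^ 3) a = a := by rw [← hsq, pow_orderOf_eq_one]; rfl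
    have h6 : (σ ^ 3) a = σ (σ (σ a)) := rfl
    rw [h6, h4] at h5
    exact ha' h5
  rw [h1]
  exact h a (σ a) (σ (σ a)) ha'.symm h3.symm h4.symm

/-- A subgroup containing all the 3-cycles with three distinct floors contains `Alt`. -/
theorem alternating_le_of_transversal {β ι : Type*} [DecidableEq β] [DecidableEq ι] [Fintype β]
    [Fintype ι] (hι : 5 ≤ Fintype.card ι) (K : Subgroup (Perm (β × ι)))
    (h : ∀ a b c : β × ι, a.2 ≠ b.2 → b.2 ≠ c.2 → a.2 ≠ c.2 → cyc a b c ∈ K) :
    alternatingGroup (β × ι) ≤ K := by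
  have hconj : ∀ k ∈ K, ∀ a b c : β × ι, cyc (k a) (k b) (k c) ∈ K → cyc a b c ∈ K := by
    intro k hk a b c hc
    rw [← cyc_conj] at hc
    have := K.mul_mem (K.mul_mem (K.inv_mem hk) hc) hk
    simpa [mul_assoc] using this
  have hex : ∀ S : Finset ι, S.card ≤ 4 → ∃ g, g ∉ S := by
    intro S hS
    by_contra hcon
    push Not at hcon
    have : S = Finset.univ := Finset.eq_univ_iff_forall.2 hcon
    rw [this, Finset.card_univ] at hS
    omega
  apply alternating_le_of_cyc
  intro a b c hab hbc hac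
  obtain ⟨g1, hg1⟩ := hex {a.2, b.2, c.2} (by
    refine (Finset.card_le_three).trans (by norm_num))
  obtain ⟨g2, hg2⟩ := hex {a.2, b.2, c.2, g1} (Finset.card_le_four)
  obtain ⟨g3, hg3⟩ := hex {a.2, c.2, g1, g2} (Finset.card_le_four)
  simp only [Finset.mem_insert, Finset.mem_singleton, not_or] at hg1 hg2 hg3
  obtain ⟨h1a, h1b, h1c⟩ := hg1
  obtain ⟨h2a, h2b, h2c, h21⟩ := hg2
  obtain ⟨h3a, h3c, h31, h32⟩ := hg3
  -- first replace `b` by a site on floor `g1`
  have hk1 : cyc b (a.1, g1) (a.1, g2) ∈ K :=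
    h _ _ _ (Ne.symm h1b) (Ne.symm h21) (Ne.symm h2b)
  have ne_of_snd : ∀ {x y : β × ι}, x.2 ≠ y.2 → x ≠ y := fun hxy he => hxy (by rw [he])
  apply hconj _ hk1
  rw [cyc_apply_of (x := a) hab (ne_of_snd (Ne.symm h1a)) (ne_of_snd (Ne.symm h2a)),
    cyc_apply_a (ne_of_snd (Ne.symm h1b)) (ne_of_snd (Ne.symm h2b)),
    cyc_apply_of (x := c) hbc.symm (ne_of_snd (Ne.symm h1c)) (ne_of_snd (Ne.symm h2c))]
  have hk2 : cyc c (a.1, g2) (a.1, g3) ∈ K :=
    h _ _ _ (Ne.symm h2c) (Ne.symm h32) (Ne.symm h3c)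
  apply hconj _ hk2
  rw [cyc_apply_of (x := a) hac (ne_of_snd (Ne.symm h2a)) (ne_of_snd (Ne.symm h3a)),
    cyc_apply_of (x := (a.1, g1)) (ne_of_snd h1c) (ne_of_snd (Ne.symm h21))
      (ne_of_snd (Ne.symm h31)),
    cyc_apply_a (ne_of_snd (Ne.symm h2c)) (ne_of_snd (Ne.symm h3c))]
  exact h _ _ _ (Ne.symm h1a) (Ne.symm h21) (Ne.symm h2a)

end cyc

section main

variable {ι : Type*} [Fintype ι] [DecidableEq ι] {LS : Set (Set Z2)}

theorem eP_mem {E : Set Z2} (hE : E ∈ LS) {a : Perm ι} (ha : a ∈ alternatingGroup ι) :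
    eP E a ∈ grp ι LS :=
  Subgroup.subset_closure (Or.inl ⟨E, hE, a, ha, rfl⟩)

theorem dP_mem {w : ι → Z2} (hw : ∑ i, w i = 0) : dP w ∈ grp ι LS :=
  Subgroup.subset_closure (Or.inr ⟨w, hw, rfl⟩)

theorem exists_floor (hι : 5 ≤ Fintype.card ι) (S : Finset ι) (hS : S.card ≤ 4) :
    ∃ g, g ∉ S := by
  by_contra hcon
  push Not at hcon
  have : S = Finset.univ := Finset.eq_univ_iff_forall.2 hcon
  rw [this, Finset.card_univ] at hS
  omega

/-- A translation vector with prescribed values on three floors and sum zero. -/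
theorem exists_w (hι : 5 ≤ Fintype.card ι) {f1 f2 f3 : ι} (h12 : f1 ≠ f2) (h23 : f2 ≠ f3)
    (h13 : f1 ≠ f3) (v1 v2 v3 : Z2) :
    ∃ w : ι → Z2, ∑ i, w i = 0 ∧ w f1 = v1 ∧ w f2 = v2 ∧ w f3 = v3 := by
  obtain ⟨g, hg⟩ := exists_floor hι {f1, f2, f3} ((Finset.card_le_three).trans (by norm_num))
  simp only [Finset.mem_insert, Finset.mem_singleton, not_or] at hg
  obtain ⟨hg1, hg2, hg3⟩ := hg
  refine ⟨Pi.single f1 v1 + Pi.single f2 v2 + Pi.single f3 v3 - Pi.single g (v1 + v2 + v3),
    ?_, ?_, ?_, ?_⟩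
  · simp only [Pi.add_apply, Pi.sub_apply, Finset.sum_add_distrib, Finset.sum_sub_distrib,
      Finset.sum_pi_single', Finset.mem_univ, if_true]
    abel
  · simp [h12, h13, Ne.symm hg1]
  · simp [h12.symm, h23, Ne.symm hg2]
  · simp [h13.symm, h23.symm, Ne.symm hg3]

theorem blow_cyc_mem (hι : 5 ≤ Fintype.card ι) {E : Set Z2} (hE : E ∈ LS) {V : Finset Z2}
    (h : Small E V) (s1 s2 s3 : V × ι) (h12 : s1.2 ≠ s2.2) (h23 : s2.2 ≠ s3.2)
    (h13 : s1.2 ≠ s3.2) : blow E V h (cyc s1 s2 s3) ∈ grp ι LS := by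
  obtain ⟨v1, f1⟩ := s1
  obtain ⟨v2, f2⟩ := s2
  obtain ⟨v3, f3⟩ := s3
  simp only at h12 h23 h13
  obtain ⟨w, hw, hw1, hw2, hw3⟩ := exists_w hι h12 h23 h13 (v1 : Z2) v2 v3
  have key : blow E V h (cyc (v1, f1) (v2, f2) (v3, f3)) =
      dP w * eP E (cyc f1 f2 f3) * (dP w)⁻¹ := by
    rw [eq_mul_inv_iff_mul_eq]
    ext1 ⟨u, f⟩
    rw [Perm.mul_apply, Perm.mul_apply, dP_apply w u f]
    by_cases hf1 : f = f1
    · subst hf1
      rw [hw1]
      by_cases hu : u ∈ E
      · have := blow_apply h (cyc (v1, f) (v2, f2) (v3, f3)) hu (v1, f)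
        simp only at this
        rw [this, cyc_apply_a (by simp [h12]) (by simp [h13]), eP_apply_mem hu,
          cyc_apply_a h12 h13, dP_apply, hw2]
      · rw [eP_apply_notMem hu, dP_apply, hw1]
        apply blow_eq_self
        intro v hv
        apply cyc_apply_of
        · rintro h'
          simp only [Prod.mk.injEq, and_true] at h'
          subst h'
          apply hu
          simpa using hv
        · simp [h12]
        · simp [h13]
    · by_cases hf2 : f = f2
      · subst hf2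
        rw [hw2]
        by_cases hu : u ∈ E
        · have := blow_apply h (cyc (v1, f1) (v2, f) (v3, f3)) hu (v2, f)
          simp only at this
          rw [this, cyc_apply_b (by simp [h13]) (by simp [h23]), eP_apply_mem hu,
            cyc_apply_b h13 h23, dP_apply, hw3]
        · rw [eP_apply_notMem hu, dP_apply, hw2]
          apply blow_eq_self
          intro v hv
          apply cyc_apply_of
          · simp [h12.symm]
          · rintro h'
            simp only [Prod.mk.injEq, and_true] at h'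
            subst h'
            apply hu
            simpa using hv
          · simp [h23]
      · by_cases hf3 : f = f3
        · subst hf3
          rw [hw3]
          by_cases hu : u ∈ E
          · have := blow_apply h (cyc (v1, f1) (v2, f2) (v3, f)) hu (v3, f)
            simp only at this
            rw [this, cyc_apply_c, eP_apply_mem hu, cyc_apply_c, dP_apply, hw1]
          · rw [eP_apply_notMem hu, dP_apply, hw3]
            apply blow_eq_self
            intro v hv
            apply cyc_apply_of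
            · simp [h13.symm]
            · simp [h23.symm]
            · rintro h'
              simp only [Prod.mk.injEq, and_true] at h'
              subst h'
              apply hu
              simpa using hv
        · rw [eP_apply_fix (cyc_apply_of hf1 hf2 hf3), dP_apply]
          apply blow_eq_self
          intro v hv
          apply cyc_apply_of
          · simp [hf1]
          · simp [hf2]
          · simp [hf3]
  rw [key]
  exact (grp ι LS).mul_mem ((grp ι LS).mul_mem (dP_mem hw)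
    (eP_mem hE (cyc_mem_alternating h12 h23))) ((grp ι LS).inv_mem (dP_mem hw))

theorem blow_mem (hι : 5 ≤ Fintype.card ι) {E : Set Z2} (hE : E ∈ LS) {V : Finset Z2}
    (h : Small E V) (σ : Perm (V × ι)) (hσ : σ ∈ alternatingGroup (V × ι)) :
    blow E V h σ ∈ grp ι LS := by
  have := alternating_le_of_transversal hι ((grp ι LS).comap (blow E V h))
    (fun a b c h1 h2 h3 => blow_cyc_mem hι hE h a b c h1 h2 h3)
  exact this hσ

/-- Small neighbourhoods exist. -/
theorem exists_small (hLS : LocalSets LS) (V : Finset Z2) (u : Z2) :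
    ∃ E ∈ LS, u ∈ E ∧ Small E V := by
  classical
  have key : ∀ P : Finset (Z2 × Z2), ∃ E ∈ LS, u ∈ E ∧
      ∀ p ∈ P, ∀ x ∈ E, ∀ x' ∈ E, x + p.1 = x' + p.2 → p.1 = p.2 := by
    intro P
    induction P using Finset.induction_on with
    | empty => exact ⟨Set.univ, hLS.univ, Set.mem_univ _, by simp⟩
    | insert p P _ ih =>
      obtain ⟨E, hE, huE, h⟩ := ih
      by_cases hp : p.1 = p.2
      · refine ⟨E, hE, huE, ?_⟩
        intro q hq
        rcases Finset.mem_insert.1 hq with rfl | hq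
        · intro _ _ _ _ _
          exact hp
        · exact h q hq
      · have hne : p.2 - p.1 ≠ 0 := fun h0 => hp (sub_eq_zero.1 h0).symm
        obtain ⟨F, hF, huF, hfree⟩ := hLS.free _ hne u
        refine ⟨E ∩ F, hLS.inter E hE F hF, ⟨huE, huF⟩, ?_⟩
        intro q hq x hx x' hx' heq
        rcases Finset.mem_insert.1 hq with rfl | hq
        · exfalso
          apply hfree x hx.2
          have : x - (q.2 - q.1) = x' := by
            rw [sub_eq_iff_eq_add]
            have : x = x' + q.2 - q.1 := by rw [← heq]; abel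
            rw [this]; abel
          rw [this]
          exact hx'.2
        · exact h q hq x hx.1 x' hx'.1 heq
  obtain ⟨E, hE, huE, h⟩ := key (V ×ˢ V)
  exact ⟨E, hE, huE, fun v hv v' hv' x hx x' hx' heq =>
    h (v, v') (Finset.mem_product.2 ⟨hv, hv'⟩) x hx x' hx' heq⟩

/-- The elements of the group are local. -/
theorem grp_local (hLS : LocalSets LS) (g : Perm (Z2 × ι)) (hg : g ∈ grp ι LS) :
    ∀ (u : Z2) (f : ι), ∃ E ∈ LS, u ∈ E ∧
      ∀ x ∈ E, g (x, f) = (x + ((g (u, f)).1 - u), (g (u, f)).2) := by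
  induction hg using Subgroup.closure_induction with
  | mem g hg =>
    intro u f
    rcases hg with ⟨E, hE, a, ha, rfl⟩ | ⟨w, hw, rfl⟩
    · by_cases hu : u ∈ E
      · refine ⟨E, hE, hu, fun x hx => ?_⟩
        rw [eP_apply_mem hx, eP_apply_mem hu]
        simp
      · refine ⟨Eᶜ, hLS.compl E hE, hu, fun x hx => ?_⟩
        rw [eP_apply_notMem hx, eP_apply_notMem hu]
        simp
    · refine ⟨Set.univ, hLS.univ, Set.mem_univ _, fun x _ => ?_⟩
      simp
  | one =>
    intro u f
    exact ⟨Set.univ, hLS.univ, Set.mem_univ _, fun x _ => by simp⟩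
  | mul g g' _ _ h1 h2 =>
    intro u f
    obtain ⟨E, hE, hu, hx⟩ := h2 u f
    obtain ⟨E', hE', hu', hx'⟩ := h1 (g' (u, f)).1 (g' (u, f)).2
    refine ⟨E ∩ {y | y - (u - (g' (u, f)).1) ∈ E'}, hLS.inter _ hE _ (hLS.trans _ hE' _),
      ⟨hu, by simpa using hu'⟩, ?_⟩
    rintro y ⟨hy1, hy2⟩
    have hy3 : y + ((g' (u, f)).1 - u) ∈ E' := by
      have : y - (u - (g' (u, f)).1) = y + ((g' (u, f)).1 - u) := by abel
      rw [← this]; exact hy2
    rw [Perm.mul_apply, Perm.mul_apply, hx y hy1, hx' _ hy3]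
    simp only [Prod.mk.eta, Prod.mk.injEq, and_true]
    abel
  | inv g _ h =>
    intro u f
    set p := g⁻¹ (u, f) with hp
    have hgp : g (p.1, p.2) = (u, f) := by simp [hp]
    obtain ⟨E, hE, hu, hx⟩ := h p.1 p.2
    refine ⟨{y | y - (u - p.1) ∈ E}, hLS.trans _ hE _, by simpa using hu, ?_⟩
    intro y hy
    have := hx _ hy
    rw [hgp] at this
    simp only at this
    rw [Perm.inv_eq_iff_eq, eq_comm]
    have h2 : y + (p.1 - u) = y - (u - p.1) := by abel
    rw [h2, this]
    simp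

/-- Step A: a nontrivial normal subgroup contains all even floor permutations above some
nonempty local set. -/
theorem stepA (hι : 5 ≤ Fintype.card ι) (hLS : LocalSets LS) (N : Subgroup (Perm (Z2 × ι)))
    (hle : N ≤ grp ι LS) (hn : ∀ g ∈ grp ι LS, ∀ n ∈ N, g * n * g⁻¹ ∈ N)
    (g : Perm (Z2 × ι)) (hg : g ∈ N) (hg1 : g ≠ 1) :
    ∃ E ∈ LS, E.Nonempty ∧ ∀ a ∈ alternatingGroup ι, eP E a ∈ N := by
  -- a moved point
  obtain ⟨⟨u0, f0⟩, hp⟩ : ∃ p, g p ≠ p := by
    by_contra hcon
    push Not at hcon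
    exact hg1 (Equiv.ext hcon)
  -- choose floors
  obtain ⟨fa, hfa⟩ := exists_floor hι {f0, (g (u0, f0)).2}
    ((Finset.card_le_two).trans (by norm_num))
  obtain ⟨fb, hfb⟩ := exists_floor hι {f0, (g (u0, f0)).2, fa}
    ((Finset.card_le_three).trans (by norm_num))
  simp only [Finset.mem_insert, Finset.mem_singleton, not_or] at hfa hfb
  obtain ⟨ha0, ha1⟩ := hfa
  obtain ⟨hb0, hb1, hba⟩ := hfb
  -- the vectors
  set d0 : Z2 := (g (u0, f0)).1 - u0 with hd0
  set da : Z2 := (g (u0, fa)).1 - u0 with hda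
  set db : Z2 := (g (u0, fb)).1 - u0 with hdb
  set V : Finset Z2 := {0, d0, da, db} with hV
  have h0V : (0 : Z2) ∈ V := by simp [hV]
  have hd0V : d0 ∈ V := by simp [hV]
  have hdaV : da ∈ V := by simp [hV]
  have hdbV : db ∈ V := by simp [hV]
  obtain ⟨E0, hE0, hu0, hsmall0⟩ := exists_small hLS V u0
  obtain ⟨E1, hE1, hu1, hloc1⟩ := grp_local hLS g (hle hg) u0 f0
  obtain ⟨E2, hE2, hu2, hloc2⟩ := grp_local hLS g (hle hg) u0 fa
  obtain ⟨E3, hE3, hu3, hloc3⟩ := grp_local hLS g (hle hg) u0 fb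
  set E : Set Z2 := (E0 ∩ E1) ∩ (E2 ∩ E3) with hEdef
  have hE : E ∈ LS := hLS.inter _ (hLS.inter _ hE0 _ hE1) _ (hLS.inter _ hE2 _ hE3)
  have huE : u0 ∈ E := ⟨⟨hu0, hu1⟩, hu2, hu3⟩
  have hsmall : Small E V := fun v hv v' hv' x hx x' hx' heq =>
    hsmall0 v hv v' hv' x hx.1.1 x' hx'.1.1 heq
  -- sites
  set s0 : V × ι := (⟨0, h0V⟩, f0) with hs0
  set sa : V × ι := (⟨0, h0V⟩, fa) with hsa
  set sb : V × ι := (⟨0, h0V⟩, fb) with hsb
  set t0 : V × ι := (⟨d0, hd0V⟩, (g (u0, f0)).2) with ht0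
  set ta : V × ι := (⟨da, hdaV⟩, (g (u0, fa)).2) with hta
  set tb : V × ι := (⟨db, hdbV⟩, (g (u0, fb)).2) with htb
  have hg0 : ∀ x ∈ E, g (x, f0) = (x + (t0.1 : Z2), t0.2) := fun x hx => hloc1 x hx.1.2
  have hga : ∀ x ∈ E, g (x, fa) = (x + (ta.1 : Z2), ta.2) := fun x hx => hloc2 x hx.2.1
  have hgb : ∀ x ∈ E, g (x, fb) = (x + (tb.1 : Z2), tb.2) := fun x hx => hloc3 x hx.2.2
  have hs0a : s0 ≠ sa := fun h => ha0 (by simpa [hs0, hsa] using h.symm)
  have hs0b : s0 ≠ sb := fun h => hb0 (by simpa [hs0, hsb] using h.symm)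
  have hsab : sa ≠ sb := fun h => hba (by simpa [hsa, hsb] using h.symm)
  have hinj : ∀ {f f' : ι} {t t' : V × ι}, (∀ x ∈ E, g (x, f) = (x + (t.1 : Z2), t.2)) →
      (∀ x ∈ E, g (x, f') = (x + (t'.1 : Z2), t'.2)) → f ≠ f' → t ≠ t' := by
    intro f f' t t' h h' hff htt
    subst htt
    have := (h u0 huE).trans (h' u0 huE).symm
    have := g.injective this
    exact hff (by simpa using this)
  have ht0a : t0 ≠ ta := hinj hg0 hga (Ne.symm ha0)
  have ht0b : t0 ≠ tb := hinj hg0 hgb (Ne.symm hb0)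
  have htab : ta ≠ tb := hinj hga hgb (Ne.symm hba)
  -- the conjugated 3-cycle
  set τ : Perm (V × ι) := cyc s0 sa sb with hτ
  set τ' : Perm (V × ι) := cyc t0 ta tb with hτ'
  have hconj : g * blow E V hsmall τ * g⁻¹ = blow E V hsmall τ' := by
    rw [mul_inv_eq_iff_eq_mul]
    ext1 ⟨x, f⟩
    rw [Perm.mul_apply, Perm.mul_apply]
    by_cases hx : x ∈ E ∧ (f = f0 ∨ f = fa ∨ f = fb)
    · obtain ⟨hxE, hf⟩ := hx
      rcases hf with rfl | rfl | rfl
      · have h1 := blow_apply hsmall τ hxE s0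
        have h2 := blow_apply hsmall τ' hxE t0
        rw [hτ, cyc_apply_a hs0a hs0b] at h1
        rw [hτ', cyc_apply_a ht0a ht0b] at h2
        rw [hg0 x hxE, h2]
        simp only [hs0, add_zero] at h1
        rw [h1]
        simp only [hsa, add_zero]
        rw [hga x hxE]
      · have h1 := blow_apply hsmall τ hxE sa
        have h2 := blow_apply hsmall τ' hxE ta
        rw [hτ, cyc_apply_b hs0b hsab] at h1
        rw [hτ', cyc_apply_b ht0b htab] at h2
        rw [hga x hxE, h2]
        simp only [hsa, add_zero] at h1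
        rw [h1]
        simp only [hsb, add_zero]
        rw [hgb x hxE]
      · have h1 := blow_apply hsmall τ hxE sb
        have h2 := blow_apply hsmall τ' hxE tb
        rw [hτ, cyc_apply_c] at h1
        rw [hτ', cyc_apply_c] at h2
        rw [hgb x hxE, h2]
        simp only [hsb, add_zero] at h1
        rw [h1]
        simp only [hs0, add_zero]
        rw [hg0 x hxE]
    · have h1 : blow E V hsmall τ (x, f) = (x, f) := by
        apply blow_eq_self
        intro v hv
        by_cases hv0 : (v : Z2) = 0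
        · have hxE : x ∈ E := by simpa [hv0] using hv
          have hvv : v = ⟨0, h0V⟩ := Subtype.ext hv0
          apply cyc_apply_of
          · intro h'
            exact hx ⟨hxE, Or.inl (by simpa [hs0] using congrArg Prod.snd h')⟩
          · intro h'
            exact hx ⟨hxE, Or.inr (Or.inl (by simpa [hsa] using congrArg Prod.snd h'))⟩
          · intro h'
            exact hx ⟨hxE, Or.inr (Or.inr (by simpa [hsb] using congrArg Prod.snd h'))⟩
        · apply cyc_apply_of
          · intro h'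
            exact hv0 (by simpa [hs0] using congrArg (fun s : V × ι => (s.1 : Z2)) h')
          · intro h'
            exact hv0 (by simpa [hsa] using congrArg (fun s : V × ι => (s.1 : Z2)) h')
          · intro h'
            exact hv0 (by simpa [hsb] using congrArg (fun s : V × ι => (s.1 : Z2)) h')
      rw [h1]
      symm
      set q := g (x, f) with hq
      have : blow E V hsmall τ' (q.1, q.2) = (q.1, q.2) := by
        apply blow_eq_self
        intro v hv
        -- the point `q` is not an image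
        have key : ∀ {f' : ι} {t : V × ι}, (∀ y ∈ E, g (y, f') = (y + (t.1 : Z2), t.2)) →
            (f' = f0 ∨ f' = fa ∨ f' = fb) → (v, q.2) ≠ t := by
          intro f' t ht hf' he
          subst he
          have h3 := ht _ hv
          have h4 : g (q.1 - v, f') = g (x, f) := by
            rw [h3, ← hq]
            simp
          have h5 := g.injective h4
          rw [Prod.mk.injEq] at h5
          apply hx
          rw [← h5.1, ← h5.2]
          exact ⟨hv, hf'⟩
        exact cyc_apply_of (key hg0 (Or.inl rfl)) (key hga (Or.inr (Or.inl rfl)))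
          (key hgb (Or.inr (Or.inr rfl)))
      exact this
  -- the commutator is in `N`
  have hτA : blow E V hsmall τ ∈ grp ι LS :=
    blow_mem hι hE hsmall τ (cyc_mem_alternating hs0a hsab)
  have hρ : blow E V hsmall (τ' * τ⁻¹) ∈ N := by
    rw [map_mul, map_inv, ← hconj]
    have h1 : blow E V hsmall τ * g⁻¹ * (blow E V hsmall τ)⁻¹ ∈ N :=
      hn _ hτA _ (N.inv_mem hg)
    have h2 := N.mul_mem hg h1
    simpa [mul_assoc] using h2
  have hne : τ' * τ⁻¹ ≠ 1 := by
    intro h1
    have h2 : τ' = τ := mul_inv_eq_one.1 h1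
    have h3 : τ' t0 = ta := cyc_apply_a ht0a ht0b
    have ht0s0 : t0 ≠ s0 := by
      intro h
      apply hp
      have h4 := hg0 u0 huE
      rw [h] at h4
      simpa [hs0] using h4
    have h4 : τ t0 = t0 := by
      apply cyc_apply_of ht0s0
      · intro h
        exact ha1 (by simpa [ht0, hsa] using (congrArg Prod.snd h).symm)
      · intro h
        exact hb1 (by simpa [ht0, hsb] using (congrArg Prod.snd h).symm)
    rw [h2, h4] at h3
    exact ht0a h3
  -- simplicity of the alternating group on the sites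
  have hcard : 5 ≤ Nat.card (V × ι) := by
    rw [Nat.card_eq_fintype_card, Fintype.card_prod]
    have : 1 ≤ Fintype.card V := Fintype.card_pos_iff.2 ⟨⟨0, h0V⟩⟩
    nlinarith
  have := alternatingGroup.isSimpleGroup (α := V × ι) hcard
  set M : Subgroup (alternatingGroup (V × ι)) :=
    N.comap ((blow E V hsmall).comp (alternatingGroup (V × ι)).subtype) with hM
  have hMn : M.Normal := by
    constructor
    intro m hm k
    rw [hM, Subgroup.mem_comap] at hm ⊢
    rw [map_mul, map_mul, map_inv]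
    exact hn _ (blow_mem hι hE hsmall _ k.2) _ hm
  have hMtop : M = ⊤ := by
    refine (hMn.eq_bot_or_eq_top).resolve_left ?_
    intro hbot
    have hmem : (⟨τ' * τ⁻¹, (alternatingGroup _).mul_mem (cyc_mem_alternating ht0a htab)
      ((alternatingGroup _).inv_mem (cyc_mem_alternating hs0a hsab))⟩ :
      alternatingGroup (V × ι)) ∈ M := hρ
    rw [hbot, Subgroup.mem_bot, Subtype.ext_iff] at hmem
    exact hne hmem
  refine ⟨E, hE, ⟨u0, huE⟩, ?_⟩
  -- the even floor permutations above `E`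
  have hall : ∀ σ ∈ alternatingGroup (V × ι), blow E V hsmall σ ∈ N := by
    intro σ hσ
    have : (⟨σ, hσ⟩ : alternatingGroup (V × ι)) ∈ M := by rw [hMtop]; trivial
    exact this
  have hsub : alternatingGroup ι ≤ N.comap (ePHom E) := by
    apply alternating_le_of_cyc
    intro a b c hab hbc hac
    rw [Subgroup.mem_comap, ePHom_apply]
    have h1 := hall (cyc ((⟨0, h0V⟩ : V), a) ((⟨0, h0V⟩ : V), b) ((⟨0, h0V⟩ : V), c))
      (cyc_mem_alternating (by simp [hab]) (by simp [hbc]))
    convert h1 using 1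
    ext1 ⟨x, f⟩
    have hfix : ∀ v : V, (v : Z2) ≠ 0 → cyc ((⟨0, h0V⟩ : V), a) ((⟨0, h0V⟩ : V), b)
        ((⟨0, h0V⟩ : V), c) (v, f) = (v, f) := by
      intro v hv
      have hv' : v ≠ ⟨0, h0V⟩ := fun h => hv (by rw [h])
      apply cyc_apply_of <;> simp [hv']
    by_cases hx : x ∈ E
    · rw [eP_apply_mem hx]
      have h2 := blow_apply hsmall (cyc ((⟨0, h0V⟩ : V), a) ((⟨0, h0V⟩ : V), b)
        ((⟨0, h0V⟩ : V), c)) hx ((⟨0, h0V⟩ : V), f)
      simp only [add_zero] at h2
      rw [h2]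
      by_cases hfa' : f = a
      · subst hfa'
        rw [cyc_apply_a hab hac, cyc_apply_a (by simp [hab]) (by simp [hac])]
        simp
      · by_cases hfb' : f = b
        · subst hfb'
          rw [cyc_apply_b hac hbc, cyc_apply_b (by simp [hac]) (by simp [hbc])]
          simp
        · by_cases hfc' : f = c
          · subst hfc'
            rw [cyc_apply_c, cyc_apply_c]
            simp
          · rw [cyc_apply_of hfa' hfb' hfc', cyc_apply_of (by simp [hfa']) (by simp [hfb'])
              (by simp [hfc'])]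
            simp
    · rw [eP_apply_notMem hx]
      symm
      apply blow_eq_self
      intro v hv
      apply hfix
      intro hv0
      apply hx
      simpa [hv0] using hv
  exact fun a ha => hsub ha

/-- Step B. -/
theorem stepB (hι : 5 ≤ Fintype.card ι) (hLS : LocalSets LS) (N : Subgroup (Perm (Z2 × ι)))
    (hn : ∀ g ∈ grp ι LS, ∀ n ∈ N, g * n * g⁻¹ ∈ N)
    (E : Set Z2) (hE : E ∈ LS) (hne : E.Nonempty)
    (hEN : ∀ a ∈ alternatingGroup ι, eP E a ∈ N) :
    ∀ F ∈ LS, ∀ a ∈ alternatingGroup ι, eP F a ∈ N := by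
  classical
  have := alternatingGroup.isSimpleGroup (α := ι) (by rwa [Nat.card_eq_fintype_card])
  -- subsets of `E`
  have h1 : ∀ F ∈ LS, F ⊆ E → ∀ a ∈ alternatingGroup ι, eP F a ∈ N := by
    intro F hF hFE
    set M : Subgroup (alternatingGroup ι) :=
      N.comap ((ePHom F).comp (alternatingGroup ι).subtype) with hM
    have hMn : M.Normal := by
      constructor
      intro m hm k
      rw [hM, Subgroup.mem_comap] at hm ⊢
      rw [map_mul, map_mul, map_inv]
      exact hn _ (eP_mem hF k.2) _ hm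
    have hcomm : ∀ a b : alternatingGroup ι, a * b * a⁻¹ * b⁻¹ ∈ M := by
      intro a b
      rw [hM, Subgroup.mem_comap]
      change eP F ((a : Perm ι) * (b : Perm ι) * (a : Perm ι)⁻¹ * (b : Perm ι)⁻¹) ∈ N
      rw [commutator_eP hFE, mul_assoc, mul_assoc, ← mul_assoc (eP F (b : Perm ι))]
      exact N.mul_mem (hEN _ a.2) (hn _ (eP_mem hF b.2) _ (N.inv_mem (hEN _ a.2)))
    have hMtop : M = ⊤ := by
      refine (hMn.eq_bot_or_eq_top).resolve_left ?_
      intro hbot
      obtain ⟨x1, hx1⟩ := exists_floor hι ∅ (by simp)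
      obtain ⟨x2, hx2⟩ := exists_floor hι {x1} (by simp)
      obtain ⟨x3, hx3⟩ := exists_floor hι {x1, x2} ((Finset.card_le_two).trans (by norm_num))
      obtain ⟨x4, hx4⟩ := exists_floor hι {x1, x2, x3}
        ((Finset.card_le_three).trans (by norm_num))
      simp only [Finset.mem_insert, Finset.mem_singleton, not_or] at hx2 hx3 hx4
      set c1 : alternatingGroup ι :=
        ⟨cyc x1 x2 x3, cyc_mem_alternating (Ne.symm hx2) (Ne.symm hx3.2)⟩ with hc1
      set c2 : alternatingGroup ι :=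
        ⟨cyc x1 x2 x4, cyc_mem_alternating (Ne.symm hx2) (Ne.symm hx4.2.1)⟩ with hc2
      have h := hcomm c1 c2
      rw [hbot, Subgroup.mem_bot, mul_inv_eq_one, mul_inv_eq_iff_eq_mul] at h
      have h' : cyc x1 x2 x3 * cyc x1 x2 x4 = cyc x1 x2 x4 * cyc x1 x2 x3 :=
        congrArg Subtype.val h
      have h2 := congrArg (fun σ : Perm ι => σ x1) h'
      simp only [Perm.mul_apply] at h2
      rw [cyc_apply_a (Ne.symm hx2) (Ne.symm hx4.1), cyc_apply_a (Ne.symm hx2) (Ne.symm hx3.1),
        cyc_apply_b (Ne.symm hx3.1) (Ne.symm hx3.2), cyc_apply_b (Ne.symm hx4.1)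
        (Ne.symm hx4.2.1)] at h2
      exact hx4.2.2 h2.symm
    intro a ha
    have : (⟨a, ha⟩ : alternatingGroup ι) ∈ M := by rw [hMtop]; trivial
    exact this
  -- translates
  have h2 : ∀ v : Z2, ∀ F ∈ LS, (∀ x ∈ F, x + v ∈ E) → ∀ a ∈ alternatingGroup ι,
      eP F a ∈ N := by
    intro v F hF hFE
    have hsub : alternatingGroup ι ≤ N.comap (ePHom F) := by
      apply alternating_le_of_cyc
      intro a b c hab hbc hac
      rw [Subgroup.mem_comap, ePHom_apply]
      obtain ⟨w, hw, hwa, hwb, hwc⟩ := exists_w hι hab hbc hac (-v) (-v) (-v)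
      have hF' : {u | u - v ∈ F} ∈ LS := hLS.trans F hF v
      have h3 : eP {u | u - v ∈ F} (cyc a b c) ∈ N := by
        apply h1 _ hF' _ _ (cyc_mem_alternating hab hbc)
        intro u hu
        have := hFE _ hu
        simpa using this
      have h4 := hn _ (dP_mem (LS := LS) hw) _ h3
      rw [dP_conj_eP (v := -v)] at h4
      · convert h4 using 2
        ext u
        simp
      · intro f hf
        by_cases hfa : f = a
        · rw [hfa, hwa]
        · by_cases hfb : f = b
          · rw [hfb, hwb]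
          · by_cases hfc : f = c
            · rw [hfc, hwc]
            · exact absurd (cyc_apply_of hfa hfb hfc) hf
    exact fun a ha => hsub ha
  -- finite unions
  obtain ⟨V, hV⟩ := hLS.recur E hE hne
  have h3 : ∀ W : Finset Z2, ∀ F ∈ LS, (∀ x ∈ F, ∃ v ∈ W, x + v ∈ E) →
      ∀ a ∈ alternatingGroup ι, eP F a ∈ N := by
    intro W
    induction W using Finset.induction_on with
    | empty =>
      intro F _ hF a _
      have : F = ∅ := by
        ext x
        simp only [Set.mem_empty_iff_false, iff_false]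
        intro hx
        obtain ⟨v, hv, _⟩ := hF x hx
        simp at hv
      rw [this, eP_empty]
      exact N.one_mem
    | insert v W _ ih =>
      intro F hF hFc a ha
      set E' : Set Z2 := {u | u - (-v) ∈ E} with hE'
      have hE'LS : E' ∈ LS := hLS.trans E hE (-v)
      have hsplit : F = (F ∩ E') ∪ (F ∩ E'ᶜ) := by
        rw [← Set.inter_union_distrib_left, Set.union_compl_self, Set.inter_univ]
      rw [hsplit, eP_union]
      · apply N.mul_mem
        · apply h2 v _ (hLS.inter _ hF _ hE'LS) _ a ha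
          intro x hx
          have := hx.2
          simpa [hE'] using this
        · apply ih _ (hLS.inter _ hF _ (hLS.compl _ hE'LS)) _ a ha
          intro x hx
          obtain ⟨v', hv', hxv⟩ := hFc x hx.1
          rcases Finset.mem_insert.1 hv' with rfl | hv'
          · exfalso
            apply hx.2
            simpa [hE'] using hxv
          · exact ⟨v', hv', hxv⟩
      · rw [Set.disjoint_left]
        intro x hx hx'
        exact hx'.2 hx.2
  intro F hF a ha
  exact h3 V F hF (fun x _ => hV x) a ha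

/-- Step C. -/
theorem stepC (hι : 5 ≤ Fintype.card ι) (N : Subgroup (Perm (Z2 × ι)))
    (hn : ∀ g ∈ grp ι LS, ∀ n ∈ N, g * n * g⁻¹ ∈ N)
    (hEN : ∀ a ∈ alternatingGroup ι, eP Set.univ a ∈ N) :
    ∀ w : ι → Z2, ∑ i, w i = 0 → dP w ∈ N := by
  -- two floors
  have h1 : ∀ i j : ι, i ≠ j → ∀ v : Z2, dP (Pi.single j v - Pi.single i v) ∈ N := by
    intro i j hij v
    obtain ⟨l, hl⟩ := exists_floor hι {i, j} ((Finset.card_le_two).trans (by norm_num))
    obtain ⟨k, hk⟩ := exists_floor hι {i, j, l} ((Finset.card_le_three).trans (by norm_num))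
    simp only [Finset.mem_insert, Finset.mem_singleton, not_or] at hl hk
    -- `a = (i j l)`
    set a : Perm ι := cyc i j l with ha
    have hai : a i = j := cyc_apply_a hij (Ne.symm hl.1)
    have hak : a k = k := cyc_apply_of hk.1 hk.2.1 hk.2.2
    have haA : a ∈ alternatingGroup ι := cyc_mem_alternating hij (Ne.symm hl.2)
    set w : ι → Z2 := Pi.single i v - Pi.single k v with hw
    have hwsum : ∑ x, w x = 0 := by
      simp [hw, Finset.sum_sub_distrib]
    have h2 : eP Set.univ a * dP w * (eP Set.univ a)⁻¹ =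
        dP (Pi.single j v - Pi.single k v) := by
      rw [mul_inv_eq_iff_eq_mul]
      ext1 ⟨u, f⟩
      rw [Perm.mul_apply, Perm.mul_apply, dP_apply, eP_apply_mem (Set.mem_univ _),
        eP_apply_mem (Set.mem_univ _), dP_apply]
      congr 2
      rw [hw]
      simp only [Pi.sub_apply, Pi.single_apply]
      have e1 : (a f = j) ↔ (f = i) := by rw [← hai]; exact a.injective.eq_iff
      have e2 : (a f = k) ↔ (f = k) := by
        constructor
        · intro h; exact a.injective (by rw [h, hak])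
        · intro h; rw [h, hak]
      simp only [e1, e2]
    have h3 : eP Set.univ a * dP w * (eP Set.univ a)⁻¹ * (dP w)⁻¹ ∈ N := by
      rw [mul_assoc, mul_assoc, ← mul_assoc (dP w)]
      exact N.mul_mem (hEN a haA) (hn _ (dP_mem hwsum) _ (N.inv_mem (hEN a haA)))
    rw [h2, dP_inv, dP_mul] at h3
    convert h3 using 2
    rw [hw]
    abel
  intro w hw
  obtain ⟨i0, -⟩ := exists_floor hι ∅ (by simp)
  -- decompose
  have h4 : ∀ S : Finset ι, dP (∑ i ∈ S, (Pi.single i (w i) - Pi.single i0 (w i))) ∈ N := by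
    intro S
    induction S using Finset.induction_on with
    | empty => rw [Finset.sum_empty, dP_zero]; exact N.one_mem
    | insert i S hi ih =>
      rw [Finset.sum_insert hi, ← dP_mul]
      apply N.mul_mem _ ih
      by_cases hi0 : i0 = i
      · subst hi0
        rw [sub_self, dP_zero]
        exact N.one_mem
      · exact h1 i0 i hi0 (w i)
  have h5 : w = ∑ i, (Pi.single i (w i) - Pi.single i0 (w i)) := by
    rw [Finset.sum_sub_distrib]
    have h6 : ∑ i, (Pi.single i0 (w i) : ι → Z2) = 0 := by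
      ext1 k
      rw [Finset.sum_apply]
      by_cases hk : k = i0
      · subst hk
        simpa using hw
      · simp [hk]
    rw [h6, sub_zero]
    ext1 k
    rw [Finset.sum_apply]
    simp [Pi.single_apply]
  rw [h5]
  exact h4 _

theorem normal_eq_top (hι : 5 ≤ Fintype.card ι) (hLS : LocalSets LS)
    (N : Subgroup (Perm (Z2 × ι)))
    (hle : N ≤ grp ι LS) (hn : ∀ g ∈ grp ι LS, ∀ n ∈ N, g * n * g⁻¹ ∈ N)
    (g : Perm (Z2 × ι)) (hg : g ∈ N) (hg1 : g ≠ 1) : grp ι LS ≤ N := by
  obtain ⟨E, hE, hne, hEN⟩ := stepA hι hLS N hle hn g hg hg1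
  have hB := stepB hι hLS N hn E hE hne hEN
  have hC := stepC hι N hn (hB _ hLS.univ)
  rw [grp, Subgroup.closure_le]
  rintro x (⟨F, hF, a, ha, rfl⟩ | ⟨w, hw, rfl⟩)
  · exact hB F hF a ha
  · exact hC w hw

theorem infinite_grp (hι : 5 ≤ Fintype.card ι) : Infinite (grp ι LS) := by
  obtain ⟨i, -⟩ := exists_floor hι ∅ (by simp)
  obtain ⟨j, hj⟩ := exists_floor hι {i} (by simp)
  simp only [Finset.mem_singleton] at hj
  have hsum : ∀ n : ℤ, ∑ x, (Pi.single (M := fun _ => Z2) i ((n, 0) : Z2) -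
      Pi.single (M := fun _ => Z2) j ((n, 0) : Z2)) x = 0 := by
    intro n
    simp [Finset.sum_sub_distrib]
  apply Infinite.of_injective (fun n : ℤ => (⟨dP (Pi.single (M := fun _ => Z2) i ((n, 0) : Z2) -
    Pi.single (M := fun _ => Z2) j ((n, 0) : Z2)), dP_mem (hsum n)⟩ : grp ι LS))
  intro n m hnm
  have h1 := congrArg (fun g : grp ι LS => (g : Perm (Z2 × ι)) (0, i)) hnm
  simp only [dP_apply, Pi.sub_apply, Pi.single_eq_same, Pi.single_eq_of_ne (Ne.symm hj)] at h1
  simpa using h1

theorem isSimple (hι : 5 ≤ Fintype.card ι) (hLS : LocalSets LS) :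
    IsSimpleGroup (grp ι LS) := by
  have := infinite_grp (LS := LS) hι
  have : Nontrivial (grp ι LS) := inferInstance
  refine ⟨fun H hH => ?_⟩
  by_cases hbot : H = ⊥
  · exact Or.inl hbot
  · right
    obtain ⟨⟨g, hgA⟩, hgH, hg1⟩ : ∃ g ∈ H, g ≠ 1 := by
      by_contra hcon
      push Not at hcon
      exact hbot ((Subgroup.eq_bot_iff_forall H).2 hcon)
    have hle : H.map (grp ι LS).subtype ≤ grp ι LS := Subgroup.map_subtype_le H
    have h := normal_eq_top hι hLS (H.map (grp ι LS).subtype) hle ?_ g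
      ⟨⟨g, hgA⟩, hgH, rfl⟩ (fun h => hg1 (Subtype.ext h))
    · rw [eq_top_iff]
      rintro ⟨x, hx⟩ -
      obtain ⟨y, hy, hyx⟩ := h hx
      have : y = ⟨x, hx⟩ := Subtype.ext hyx
      rwa [← this]
    · rintro x hx _ ⟨y, hy, rfl⟩
      exact ⟨⟨x, hx⟩ * y * ⟨x, hx⟩⁻¹, hH.conj_mem y hy ⟨x, hx⟩, rfl⟩

end main

end Vale.Agent.P196.S0
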